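import Vale.Agent.P032.H913.Pts

/-!
# P032: metric gates, the angles

`phi`, `psi` : half of `arccos (5/6)` and half of `arccos (7/8)` in units of 60 degrees.

* `rel_phi` : `dir (a + 2 phi) + dir (a + 2 phi + 1) = dir a + dir (a + 1) + dir (a + phi + 2)`,
* `rel_psi` : `2 dir (a + 2 psi) = 2 dir a + dir (a + psi + 3 / 2)`,
* `third_A`, `third_A'`, `third_B`, `third_B'` : at the four gates the third class is a combination of the other two.
-/

open Set Filter Topology Metric

noncomputable section

namespace Vale.Agent.P032.H374.Gate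

open Vale.Agent.P032.Six Vale.Agent.P032.H892 Vale.Agent.P032.S5.H767 Vale.Agent.P032.H913

/-- half of the Moser angle, 16.78 degrees -/
def phi : ℝ := Real.arccos (5 / 6) / 2 / (Real.pi / 3)

/-- 14.48 degrees -/
def psi : ℝ := Real.arccos (7 / 8) / 2 / (Real.pi / 3)

theorem pi3 : (0 : ℝ) < Real.pi / 3 := by have := Real.pi_pos; linarith

theorem arccos_lt {x : ℝ} (h : 1 / 2 < x) (h1 : x ≤ 1) : Real.arccos x < Real.pi / 3 := by
  have h2 : Real.arccos (1 / 2) = Real.pi / 3 := by
    have h3 : Real.cos (Real.pi / 3) = 1 / 2 := Real.cos_pi_div_three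
    rw [← h3, Real.arccos_cos (by have := Real.pi_pos; linarith) (by have := Real.pi_pos; linarith)]
  rw [← h2]
  exact Real.arccos_lt_arccos (by norm_num) h h1

theorem phi_pos : 0 < phi := by
  unfold phi
  have h : 0 < Real.arccos (5 / 6) := Real.arccos_pos.2 (by norm_num)
  have := pi3
  positivity

theorem psi_pos : 0 < psi := by
  unfold psi
  have h : 0 < Real.arccos (7 / 8) := Real.arccos_pos.2 (by norm_num)
  have := pi3
  positivity

theorem phi_lt : 2 * phi < 1 := by
  unfold phi
  have h := arccos_lt (x := 5 / 6) (by norm_num) (by norm_num)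
  have := pi3
  rw [show 2 * (Real.arccos (5 / 6) / 2 / (Real.pi / 3)) = Real.arccos (5 / 6) / (Real.pi / 3) by ring]
  rw [div_lt_one this]
  exact h

theorem psi_lt : 2 * psi < 1 := by
  unfold psi
  have h := arccos_lt (x := 7 / 8) (by norm_num) (by norm_num)
  have := pi3
  rw [show 2 * (Real.arccos (7 / 8) / 2 / (Real.pi / 3)) = Real.arccos (7 / 8) / (Real.pi / 3) by ring]
  rw [div_lt_one this]
  exact h

theorem sin_half {x s : ℝ} (hs : 0 ≤ s) (h : x = 1 - 2 * s ^ 2) (h1 : -1 ≤ x) (h2 : x ≤ 1) :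
    Real.sin (Real.arccos x / 2) = s := by
  have h3 : Real.cos (2 * (Real.arccos x / 2)) = x := by
    rw [show 2 * (Real.arccos x / 2) = Real.arccos x by ring, Real.cos_arccos h1 h2]
  rw [Real.cos_two_mul] at h3
  have h4 := Real.sin_sq_add_cos_sq (Real.arccos x / 2)
  have h5 : Real.sin (Real.arccos x / 2) ^ 2 = s ^ 2 := by nlinarith
  have h6 : 0 ≤ Real.sin (Real.arccos x / 2) := by
    apply Real.sin_nonneg_of_nonneg_of_le_pi
    · have := Real.arccos_nonneg x; linarith
    · have := Real.arccos_le_pi x; have := Real.pi_pos; linarith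
  exact (pow_left_inj₀ h6 hs two_ne_zero).1 h5

theorem phi_mul : phi * (Real.pi / 3) = Real.arccos (5 / 6) / 2 := by
  unfold phi
  have := pi3
  field_simp

theorem psi_mul : psi * (Real.pi / 3) = Real.arccos (7 / 8) / 2 := by
  unfold psi
  have := pi3
  field_simp

theorem sin_phi : Real.sin (phi * (Real.pi / 3)) = √3 / 6 := by
  rw [phi_mul]
  refine sin_half (by positivity) ?_ (by norm_num) (by norm_num)
  have h3 : √3 ^ 2 = 3 := Real.sq_sqrt (by norm_num)
  rw [div_pow, h3]; norm_num

theorem sin_psi : Real.sin (psi * (Real.pi / 3)) = 1 / 4 := by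
  rw [psi_mul]
  exact sin_half (by positivity) (by norm_num) (by norm_num) (by norm_num)

theorem dir_re (x : ℝ) : (dir x).re = Real.cos (x * (Real.pi / 3)) := by unfold dir; exact cis_re _

theorem dir_im (x : ℝ) : (dir x).im = Real.sin (x * (Real.pi / 3)) := by unfold dir; exact cis_im _

theorem dir_one : dir 1 = ⟨1 / 2, √3 / 2⟩ := by unfold dir; rw [one_mul, cis_third]

/-- `e ^ 2 - 1 = 2 i s e` for the unit vector `e` with the sine `s` -/
theorem dir_sq (x : ℝ) : dir x * dir x - 1 = 2 * Complex.I * ((Real.sin (x * (Real.pi / 3)) : ℝ) : ℂ) * dir x := by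
  have h := Real.sin_sq_add_cos_sq (x * (Real.pi / 3))
  apply Complex.ext
  · simp only [Complex.sub_re, Complex.mul_re, Complex.one_re, Complex.mul_im, Complex.I_re, Complex.I_im,
      Complex.ofReal_re, Complex.ofReal_im, dir_re, dir_im, Complex.re_ofNat, Complex.im_ofNat]
    nlinarith
  · simp only [Complex.sub_im, Complex.mul_re, Complex.one_im, Complex.mul_im, Complex.I_re, Complex.I_im,
      Complex.ofReal_re, Complex.ofReal_im, dir_re, dir_im, Complex.re_ofNat, Complex.im_ofNat]
    ring

/-- `(1 + w) (e ^ 2 - 1) = w ^ 2 e` -/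
theorem core_phi : (1 + dir 1) * (dir phi * dir phi - 1) = (dir 1 - 1) * dir phi := by
  rw [dir_sq, sin_phi]
  have h : (1 + dir 1) * (2 * Complex.I * ((√3 / 6 : ℝ) : ℂ)) = dir 1 - 1 := by
    have h3 : √3 * √3 = 3 := Real.mul_self_sqrt (by norm_num)
    rw [dir_one]
    apply Complex.ext
    · simp only [Complex.sub_re, Complex.mul_re, Complex.one_re, Complex.mul_im, Complex.I_re, Complex.I_im,
        Complex.ofReal_re, Complex.ofReal_im, Complex.add_re, Complex.add_im, Complex.one_im, Complex.re_ofNat,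
        Complex.im_ofNat]
      nlinarith
    · simp only [Complex.sub_im, Complex.mul_re, Complex.one_re, Complex.mul_im, Complex.I_re, Complex.I_im,
        Complex.ofReal_re, Complex.ofReal_im, Complex.add_re, Complex.add_im, Complex.one_im, Complex.re_ofNat,
        Complex.im_ofNat]
      ring
  rw [← mul_assoc, h]

/-- `2 (e ^ 2 - 1) = i e` -/
theorem core_psi : 2 * (dir psi * dir psi - 1) = Complex.I * dir psi := by
  rw [dir_sq, sin_psi]
  push_cast
  ring

/-- **the first relation** (Moser) -/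
theorem rel_phi (a : ℝ) : (1 + dir 1) * (dir (a + 2 * phi) - dir a) = (dir 1 - 1) * dir (a + phi) := by
  have h := core_phi
  rw [show a + 2 * phi = a + phi + phi by ring, dir_mul (a + phi), dir_mul a]
  linear_combination (dir a) * h

/-- **the second relation** -/
theorem rel_psi (a : ℝ) : 2 * (dir (a + 2 * psi) - dir a) = dir (a + psi + 3 / 2) := by
  have h := core_psi
  rw [dir_quarter, show a + 2 * psi = a + psi + psi by ring, dir_mul (a + psi), dir_mul a]
  linear_combination (dir a) * h

/-- gate A, classes `a`, `a + phi`, `a + 2 phi` -/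
theorem third_A (a : ℝ) : dir (a + phi) = (1 - 2 * dir 1) * (dir (a + 2 * phi) - dir a) := by
  have h := rel_phi a
  have h2 := dir_one_sq
  linear_combination (dir 1) * h + (dir (a + phi) - (dir (a + 2 * phi) - dir a)) * h2

/-- gate A', classes `a`, `a + (1 - 2 phi)`, `a + (1 - phi)` -/
theorem third_A' (a : ℝ) : dir (a + (1 - phi)) = (2 - dir 1) * dir a + (2 * dir 1 - 1) * dir (a + (1 - 2 * phi)) := by
  have h := third_A (a + (1 - 2 * phi))
  rw [show a + (1 - 2 * phi) + phi = a + (1 - phi) by ring, show a + (1 - 2 * phi) + 2 * phi = a + 1 by ring,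
    dir_mul a 1] at h
  have h2 := dir_one_sq
  rw [h]
  linear_combination (-2 * dir a) * h2

/-- gate B, classes `a`, `a + 2 psi`, `a + (psi + 1 / 2)` -/
theorem third_B (a : ℝ) : dir (a + (psi + 1 / 2)) = 2 * (1 - dir 1) * (dir (a + 2 * psi) - dir a) := by
  have h := rel_psi a
  rw [show a + psi + 3 / 2 = a + (psi + 1 / 2) + 1 by ring, dir_mul _ 1] at h
  have h2 := dir_one_sq
  linear_combination (dir 1 - 1) * h + (dir (a + (psi + 1 / 2))) * h2

/-- gate B', classes `a`, `a + (1 / 2 - psi)`, `a + (1 - 2 psi)` -/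
theorem third_B' (a : ℝ) : dir (a + (1 / 2 - psi)) = 2 * dir 1 * dir (a + (1 - 2 * psi)) + (2 - 2 * dir 1) * dir a := by
  have h := rel_psi (a + (1 - 2 * psi))
  rw [show a + (1 - 2 * psi) + 2 * psi = a + 1 by ring, show a + (1 - 2 * psi) + psi + 3 / 2 =
    a + (1 / 2 - psi) + 1 + 1 by ring, dir_mul a 1, dir_mul (a + (1 / 2 - psi) + 1) 1, dir_mul (a + (1 / 2 - psi)) 1] at h
  have h2 := dir_one_sq
  linear_combination (dir 1) * h + ((1 + dir 1) * dir (a + (1 / 2 - psi)) - 2 * dir a) * h2

end Vale.Agent.P032.H374.Gate
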